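import Vale.Agent.P014T.Ew.Dic
import Vale.Agent.P014U.Kx.Tw
import Vale.Agent.P014U.Dr.St
import Vale.Agent.P014U.Ba.Spq
import Vale.Agent.P014U.Bt.Ac

/-! # P014U, block EW: cocycles in coordinates and cocycles with values in points -/

set_option autoImplicit false
set_option linter.all false

open scoped Classical

noncomputable section

namespace Vale.Agent.P014U.Ew

export Vale.Agent.P014T.Ew (sp_congr)

open Matrix Set
open Vale.Agent.P022 (Qb GQ IsConj)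
open Vale.Agent.P004M.TE (Pt ga ga_one)
open X4M.TE (Tm bs mt cp_rho)
open P027M.K
open Kx.Tw (rz co co_inj co_ex co_ga co_lev co_rz)
open Bt (dd Zl Z0 Gp)
open Ba (Tk)
open P014T.Ba (sp Kr sp_map)
open P014T.Pq (Zq)
open Dr (Co Ch cj)

variable [Pp] {A B : ℤ} {j n : ℕ} {H : Subgroup GQ} {S : Finset ℕ} {c : GQ}

/-- `e` gives coordinates on the points of order `pp ^ j`, the action is given by `a` -/
structure Xy (j : ℕ) (a : GQ → Matrix (Fin 2) (Fin 2) (ZMod (pp ^ j)))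
    (e : (Fin 2 → ZMod (pp ^ j)) →+ Pt A B) : Prop where
  inj : Function.Injective e
  ex : ∀ y, pp ^ j • y = 0 → ∃ v, e v = y
  act : ∀ g v, e (a g *ᵥ v) = ga g (e v)

/-- **from coordinates to points** -/
def cz (e : (Fin 2 → ZMod (pp ^ j)) →+ Pt A B) : (GQ → Fin 2 → ZMod (pp ^ j)) →+ GQ → Pt A B :=
  e.compLeft GQ

section gen

variable {a : GQ → Matrix (Fin 2) (Fin 2) (ZMod (pp ^ j))} {e : (Fin 2 → ZMod (pp ^ j)) →+ Pt A B}
  {x x' : GQ → Fin 2 → ZMod (pp ^ j)} {z : GQ → Pt A B}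

theorem cz_apply (x : GQ → Fin 2 → ZMod (pp ^ j)) (g : GQ) : cz e x g = e (x g) := rfl

theorem e_smul (e : (Fin 2 → ZMod (pp ^ j)) →+ Pt A B) (s : ZMod (pp ^ j))
    (v : Fin 2 → ZMod (pp ^ j)) : e (s • v) = s.val • e v := by
  rw [← map_nsmul, ← Nat.cast_smul_eq_nsmul (ZMod (pp ^ j)), ZMod.natCast_zmod_val]

theorem e_int (e : (Fin 2 → ZMod (pp ^ j)) →+ Pt A B) (s : ℤ) (v : Fin 2 → ZMod (pp ^ j)) :
    e ((s : ZMod (pp ^ j)) • v) = s • e v := by rw [Int.cast_smul_eq_zsmul, map_zsmul]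

theorem e_tor (e : (Fin 2 → ZMod (pp ^ j)) →+ Pt A B) (v : Fin 2 → ZMod (pp ^ j)) :
    pp ^ j • e v = 0 := by
  rw [← map_nsmul, ← Nat.cast_smul_eq_nsmul (ZMod (pp ^ j)), ZMod.natCast_self, zero_smul, map_zero]

theorem cz_smul (s : ZMod (pp ^ j)) (x : GQ → Fin 2 → ZMod (pp ^ j)) :
    cz e (s • x) = s.val • cz e x := funext fun g => e_smul e s _

theorem cz_int (s : ℤ) (x : GQ → Fin 2 → ZMod (pp ^ j)) :
    cz e ((s : ZMod (pp ^ j)) • x) = s • cz e x := funext fun g => e_int e s _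

theorem cz_tor (x : GQ → Fin 2 → ZMod (pp ^ j)) : pp ^ j • cz e x = 0 := funext fun g => e_tor e _

namespace Xy

variable (h : Xy j a e)
include h

theorem act' (g : GQ) (v : Fin 2 → ZMod (pp ^ j)) : e ((a g - 1) *ᵥ v) = ga g (e v) - e v := by
  rw [sub_mulVec, one_mulVec, map_sub, h.act]

theorem cz_inj : Function.Injective (cz e) := fun _ _ k => funext fun g => h.inj (congrFun k g)

theorem cz_zero {g : GQ} : cz e x g = 0 ↔ x g = 0 := map_eq_zero_iff _ h.inj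

theorem cz_ex (k : ∀ g, pp ^ j • z g = 0) : ∃ x, cz e x = z := by
  choose x q using fun g => h.ex _ (k g)
  exact ⟨x, funext q⟩

theorem cz_ex' (k : ∀ g ∈ H, pp ^ j • z g = 0) : ∃ x, ∀ g ∈ H, cz e x g = z g := by
  choose! x q using fun g m => h.ex _ (k g m)
  exact ⟨x, q⟩

/-- cocycles of a subgroup -/
theorem co_iff : Co H a x ↔ cz e x ∈ Zl A B H := by
  refine ⟨fun q => ⟨?_, fun g hg k hk => ?_, j, fun g _ => e_tor e _⟩, fun q => ⟨?_, ?_⟩⟩
  · obtain ⟨W, o, w⟩ := q.lc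
    refine (IsLocallyConstant.iff_eventually_eq _).2 fun g₀ => ?_
    filter_upwards [(o.preimage ((continuous_const_mul (g₀ : GQ)⁻¹).comp
      continuous_subtype_val)).mem_nhds (show g₀ ∈ _ by simpa using W.one_mem)] with g hg
    have := q.coc g₀ g₀.2 _ (mul_mem (inv_mem g₀.2) g.2)
    rw [mul_inv_cancel_left, w ((g₀ : GQ)⁻¹ * g) hg (mul_mem (inv_mem g₀.2) g.2), mulVec_zero,
      add_zero] at this
    rw [cz_apply, cz_apply, this]
  · rw [cz_apply, q.coc g hg k hk, map_add, h.act]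
    rfl
  · exact fun g hg k hk => h.inj (by rw [map_add, h.act]; exact q.2.1 g hg k hk)
  · have e1 : cz e x 1 = 0 := by
      have := q.2.1 1 (one_mem _) 1 (one_mem _)
      rwa [mul_one, ga_one, left_eq_add] at this
    obtain ⟨U, o, k⟩ := isOpen_induced_iff.1 (q.1 {0})
    obtain ⟨W, oW, kW⟩ := P004S.ex_open (o.mem_nhds ((Set.ext_iff.1 k ⟨1, one_mem _⟩).2 e1))
    exact ⟨W, oW, fun w p b => h.cz_zero.1 ((Set.ext_iff.1 k ⟨w, b⟩).1 (kW p))⟩

/-- framed cocycles -/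
theorem zq_iff : x ∈ Zq (ZMod (pp ^ j)) S a c ↔ cz e x ∈ Z0 A B S c := by
  refine ⟨fun ⟨p, ⟨W, o, w⟩, b, d⟩ => ?_, fun q => ?_⟩
  · have := (h.co_iff (H := ⊤)).1 ⟨fun g _ k _ => p g k, W, o, fun g m _ => w g m⟩
    exact ⟨this.1.comp_continuous (f := fun g : GQ => (⟨g, trivial⟩ : (⊤ : Subgroup GQ)))
      (continuous_id.subtype_mk _), fun g k => this.2.1 g trivial k trivial, ⟨j, fun g => e_tor e _⟩,
      fun g m => h.cz_zero.2 (b g m), h.cz_zero.2 d⟩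
  · obtain ⟨p, W, o, w⟩ := h.co_iff.2 (Bt.Z0_le S c ⊤ q)
    exact ⟨fun g k => p g trivial k trivial, ⟨W, o, fun g m => w g m trivial⟩,
      fun g m => h.cz_zero.1 (q.2.2.2.1 g m), h.cz_zero.1 q.2.2.2.2⟩

theorem card_zq : Nat.card (Zq (ZMod (pp ^ j)) S a c) = Nat.card (Tk (Z0 A B S c) j) :=
  Nat.card_congr (Equiv.ofBijective
    (fun x => ⟨⟨cz e x.1, h.zq_iff.1 x.2⟩, Subtype.ext (cz_tor x.1)⟩)
    ⟨fun x y k => Subtype.ext (h.cz_inj (congrArg (·.1.1) k)), fun y => by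
      obtain ⟨x, k⟩ := h.cz_ex (z := y.1.1) fun g => congrFun (congrArg Subtype.val y.2) g
      exact ⟨⟨x, h.zq_iff.2 (k ▸ y.1.2)⟩, Subtype.ext (Subtype.ext k)⟩⟩)

/-- cohomologous cocycles -/
theorem ch_iff : Ch H a x x' ↔ ∃ t, pp ^ j • t = 0 ∧ ∀ g ∈ H, cz e x g - cz e x' g = ga g t - t := by
  refine ⟨fun ⟨w, k⟩ => ⟨e w, e_tor e w, fun g m => ?_⟩, fun ⟨t, p, k⟩ => ?_⟩
  · rw [cz_apply, cz_apply, ← map_sub, k g m, map_sub, h.act]
  · obtain ⟨w, rfl⟩ := h.ex t p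
    exact ⟨w, fun g m => h.inj (by rw [map_sub, map_sub, h.act]; exact k g m)⟩

theorem cz_cob (v : Fin 2 → ZMod (pp ^ j)) : cz e (fun g => (a g - 1) *ᵥ v) = dd A B (e v) :=
  funext fun g => h.act' g v

/-- **the numbers of a presentation** -/
theorem num {ι κ : Type} [Fintype κ] (Q : Matrix ι κ (ZMod (pp ^ j)))
    (u : GQ → Matrix (Fin 2) κ (ZMod (pp ^ j)))
    (b : BijOn (fun y g => u g *ᵥ y) {y | Q *ᵥ y = 0} (Zq (ZMod (pp ^ j)) S a c)) :
    Nat.card (Kr Q) = Nat.card (Tk (Z0 A B S c) j) ∧ ∀ v w, Q *ᵥ v = 0 → Q *ᵥ w = 0 →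
      sp v w = sp (cz e fun g => u g *ᵥ v) (cz e fun g => u g *ᵥ w) := by
  refine ⟨(Nat.card_congr b.equiv).trans h.card_zq, fun v w p q => ?_⟩
  let f : Kr Q →+ GQ → Fin 2 → ZMod (pp ^ j) :=
    AddMonoidHom.mk' (fun y g => u g *ᵥ y.1) fun y y' => funext fun g => mulVec_add _ _ _
  exact (sp_map (Kr Q).subtype Subtype.val_injective ⟨v, p⟩ ⟨w, q⟩).trans
    (sp_map ((cz e).comp f) (h.cz_inj.comp fun y y' k => Subtype.ext (b.injOn y.2 y'.2 k))
      ⟨v, p⟩ ⟨w, q⟩).symm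

end Xy

theorem Xy.cz_cj {ρ : GQ →* Matrix (Fin 2) (Fin 2) (ZMod (pp ^ j))} (h : Xy j ρ e) (s : GQ)
    (x : GQ → Fin 2 → ZMod (pp ^ j)) (g : GQ) :
    cz e (cj ρ s x) g = ga s (cz e x (s⁻¹ * g * s)) := h.act s _

end gen

/-! ### subgroups with two generators -/

section sp

variable {Z : Type} [AddCommGroup Z] {x y : Z}

theorem zm_odd {k : ℕ} (h : pp ^ k • y = 0) {m : ℤ} (o : ¬ (pp : ℤ) ∣ m) :
    AddSubgroup.zmultiples (m • y) = AddSubgroup.zmultiples y := by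
  obtain ⟨u, v, e⟩ : IsCoprime m (pp ^ k) :=
    IsCoprime.pow_right ((Nat.prime_iff_prime_int.1 pp_prime).coprime_iff_not_dvd.2 o).symm
  refine le_antisymm (AddSubgroup.zmultiples_le.2 (zsmul_mem (AddSubgroup.mem_zmultiples _) _))
    (AddSubgroup.zmultiples_le.2 ⟨u, ?_⟩)
  have : (pp ^ k : ℤ) • y = 0 := by exact_mod_cast h
  simp only [smul_smul]
  rw [eq_sub_of_add_eq e, sub_smul, mul_smul, this, smul_zero, sub_zero, one_smul]

theorem sp_odd {k : ℕ} (h : pp ^ k • y = 0) {m : ℤ} (o : ¬ (pp : ℤ) ∣ m) :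
    sp x (m • y) = sp x y := by rw [sp, sp, zm_odd h o]

end sp

/-! ### the coordinates given by the basis of the Tate module -/

variable (hD : 4 * (A : ℚ) ^ 3 + 27 * (B : ℚ) ^ 2 ≠ 0)

/-- the representation of level `j` -/
def rj (j : ℕ) : GQ →* Matrix (Fin 2) (Fin 2) (ZMod (pp ^ j)) :=
  (rz j).mapMatrix.toMonoidHom.comp (mt hD)

theorem rj_apply (g : GQ) : rj hD j g = (mt hD g).map (rz j) := rfl

theorem xy_co (j : ℕ) : Xy j (rj hD j) (co hD j : _ →+ Pt A B) :=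
  ⟨co_inj hD j, fun _ => co_ex hD j, co_ga hD j⟩

/-- change of the level along any homomorphism of rings -/
theorem co_red (h : j ≤ n) (f : ZMod (pp ^ n) →+* ZMod (pp ^ j)) (v : Fin 2 → ZMod (pp ^ n)) :
    co hD j (f ∘ v) = pp ^ (n - j) • co hD n v := by
  obtain ⟨k, rfl⟩ := Nat.exists_eq_add_of_le h
  have e1 : v = rz (j + k) ∘ (fun i => ((v i).val : ℤ_[pp])) := funext fun i => by simp
  have e2 : f ∘ v = rz j ∘ fun i => ((v i).val : ℤ_[pp]) := funext fun i => by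
    rw [Function.comp_apply, Function.comp_apply, map_natCast, ← map_natCast f,
      ZMod.natCast_zmod_val]
  rw [e2, ← co_lev hD j k, ← e1, Nat.add_sub_cancel_left]

theorem cz_red (h : j ≤ n) (f : ZMod (pp ^ n) →+* ZMod (pp ^ j)) (x : GQ → Fin 2 → ZMod (pp ^ n)) :
    cz (A := A) (B := B) (co hD j) (fun g => f ∘ x g) = pp ^ (n - j) • cz (co hD n) x :=
  funext fun g => co_red hD h f _

/-- the element of the Tate module with given coordinates -/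
def tv (v : Fin 2 → ℤ_[pp]) : Tm (A : ℚ) (B : ℚ) := (bs hD).equivFun.symm v

theorem cp_tv (v : Fin 2 → ℤ_[pp]) : TM.cp j (tv hD v) = co hD j (rz j ∘ v) := (co_rz hD j v).symm

/-- the generator of the real part in coordinates -/
theorem gp_tv {v : Fin 2 → ℤ_[pp]} (hv : mt hD c *ᵥ v = v) (pv : ∃ i, IsUnit (v i)) :
    Gp A B c (tv hD v) := by
  refine ⟨TM.ext fun r => ?_, fun k => ?_⟩
  · rw [cp_rho, cp_tv, ← co_ga]
    refine congrArg _ (funext fun i => ?_)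
    rw [Function.comp_apply, ← congrFun hv i, RingHom.map_mulVec]
  · obtain ⟨i, p⟩ := pv
    rw [cp_tv, map_eq_zero_iff _ (co_inj hD 1)] at k
    have := p.map (rz 1)
    rw [show rz 1 (v i) = 0 from congrFun k i] at this
    have : Fact (1 < pp ^ 1) := ⟨by simpa using one_lt⟩
    exact not_isUnit_zero ‹_›

/-- the choice of the generator does not matter -/
theorem gp_zm (h : 4 * A ^ 3 + 27 * B ^ 2 ≠ 0) (hc : IsConj c) {g g' : Tm (A : ℚ) (B : ℚ)}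
    (p : Gp A B c g) (q : Gp A B c g') :
    AddSubgroup.zmultiples (dd A B (TM.cp j g)) = AddSubgroup.zmultiples (dd A B (TM.cp j g')) := by
  have k : ∀ {g g' : Tm (A : ℚ) (B : ℚ)}, Gp A B c g → Gp A B c g' →
      AddSubgroup.zmultiples (dd A B (TM.cp j g)) ≤ AddSubgroup.zmultiples (dd A B (TM.cp j g')) :=
    fun p q => by
      obtain ⟨a, rfl⟩ := q.line h hc p.1
      rw [TM.cp_smul, map_nsmul]
      exact AddSubgroup.zmultiples_le.2 (nsmul_mem (AddSubgroup.mem_zmultiples _) _)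
  exact le_antisymm (k p q) (k q p)

theorem sp_gp (h : 4 * A ^ 3 + 27 * B ^ 2 ≠ 0) (hc : IsConj c) {g g' : Tm (A : ℚ) (B : ℚ)}
    (p : Gp A B c g) (q : Gp A B c g') (z : GQ → Pt A B) :
    sp (dd A B (TM.cp j g)) z = sp (dd A B (TM.cp j g')) z :=
  sp_congr (gp_zm h hc p q) (by rw [sub_self]; exact zero_mem _)

/-- **the end form** -/
theorem fin (h' : 4 * A ^ 3 + 27 * B ^ 2 ≠ 0) (hc : IsConj c)
    {gp : Fin 2 → ℤ_[pp]} (hv : mt hD c *ᵥ gp = gp) (pv : ∃ i, IsUnit (gp i))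
    {ι κ : Type} [Fintype κ] (Q : Matrix ι κ (ZMod (pp ^ j)))
    (u : GQ → Matrix (Fin 2) κ (ZMod (pp ^ j)))
    (b : BijOn (fun y g => u g *ᵥ y) {y | Q *ᵥ y = 0} (Zq (ZMod (pp ^ j)) S (rj hD j) c))
    {v w : κ → ZMod (pp ^ j)} (qv : Q *ᵥ v = 0) (qw : Q *ᵥ w = 0)
    (dv : ∀ g, u g *ᵥ v = (rj hD j g - 1) *ᵥ (rz j ∘ gp)) {g : Tm (A : ℚ) (B : ℚ)} (G : Gp A B c g) :
    Nat.card (Kr Q) = Nat.card (Tk (Z0 A B S c) j) ∧
      sp v w = sp (dd A B (TM.cp j g)) (cz (co hD j) fun k => u k *ᵥ w) := by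
  have X := xy_co hD j
  obtain ⟨p, q⟩ := X.num Q u b
  rw [q v w qv qw, funext dv, X.cz_cob, ← cp_tv, sp_gp h' hc (gp_tv hD hv pv) G]
  exact ⟨p, rfl⟩

end Vale.Agent.P014U.Ew
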