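import Vale.Agent.P014U.Ki.Wp
import Vale.Agent.P014U.Sy.Ex

/-! # P014U: a compatible system of alternating pairings is unique up to a unit (helper84) -/

set_option linter.all false

open scoped Classical

noncomputable section

namespace Vale.Agent.P014U.Ew

open Vale.Agent.P022 (Qb GQ)
open Vale.Agent.P014U.X4S.Ga (K O)
open Vale.Agent.P014U.X4S.Aq
open Vale.Agent.P014U.X4F.Rc (mq mq_eq mq_zero hn hn_mul)
open Vale.Agent.P014U.X4M.TE hiding Qb GQ
open P027M.K Ki Sy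

variable [Pp]

/-- the exponential as a homomorphism to the units -/
def X : K →+ Additive Qbˣ :=
  AddMonoidHom.mk' (fun x => Additive.ofMul (Units.mk0 (ex x) (ex_ne x))) fun x y =>
    Additive.toMul.injective (Units.ext (ex_add x y))

theorem X_val (x : K) : ((X x).toMul : Qb) = ex x := rfl

theorem X_eq {x y : K} : X x = X y ↔ x - y ∈ O :=
  ⟨fun h => ex_eq.1 (by rw [← X_val, h, X_val]),
    fun h => Additive.toMul.injective (Units.ext (ex_eq.2 h))⟩

theorem X_zero {x : K} : X x = 0 ↔ x ∈ O := by rw [← map_zero X, X_eq, sub_zero]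

theorem X_onto {n : ℕ} {c : Additive Qbˣ} (h : pp ^ n • c = 0) : ∃ m : ℕ, c = X (hn n * m) := by
  obtain ⟨m, e⟩ := ex_onto (η := (c.toMul : Qb)) (n := n) (by
    rw [← Units.val_pow_eq_pow_val, ← toMul_nsmul, h]; rfl)
  exact ⟨m, Additive.toMul.injective (Units.ext e)⟩

/-- a compatible system of roots of unity -/
theorem ex_lim (c : ℕ → Additive Qbˣ) (h0 : ∀ n, pp ^ n • c n = 0) (h : ∀ n, pp • c (n + 1) = c n) :
    ∃ u : ℤ_[pp], ∀ n, c n = X (hn n * u) := by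
  choose m e using fun n => X_onto (h0 n)
  have k : ∀ i, ((pp : ℕ) : ℤ) ^ i ∣ (m (i + 1) : ℤ) - m i := fun i => by
    have a := h i
    rw [e, e, ← map_nsmul, X_eq] at a
    have b := (mod_of (N := i) (a := m i) (b := m (i + 1)) (O_of (neg_mem a) (by
      have := hn_add i 1
      rw [nsmul_eq_mul]
      push_cast
      linear_combination (m (i + 1) : K) * this))).dvd
    exact_mod_cast b
  refine ⟨PadicInt.ofIntSeq _ (PadicInt.isCauSeq_padicNorm_of_pow_dvd_sub (fun i => (m i : ℤ)) pp k),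
    fun n => ?_⟩
  have a := PadicInt.toZModPow_ofIntSeq_of_pow_dvd_sub (fun i => (m i : ℤ)) pp k n
  generalize PadicInt.ofIntSeq (p := pp) _ _ = u at a ⊢
  rw [e, X_eq]
  refine O_of ((dv_iff n ((m n : ℤ_[pp]) - u)).1 (by rw [map_sub, a]; simp)) ?_
  rw [PadicInt.coe_sub, PadicInt.coe_natCast, hn, mul_sub]

theorem ap_O (n : ℕ) (a : ℤ_[pp]) : hn n * ((ap a n : ℕ) - (a : K)) ∈ O :=
  O_of ((dv_iff n ((ap a n : ℕ) - a)).1 (by rw [map_sub, map_natCast, cast_ap a le_rfl, sub_self]))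
    (by rw [PadicInt.coe_sub, PadicInt.coe_natCast, hn])

/-- a compatible system of alternating pairings -/
structure Al {M C : Type} [AddCommGroup M] [AddCommGroup C] (e : ℕ → M → M → C) : Prop where
  addl : ∀ {n x x' y}, pp ^ n • x = 0 → pp ^ n • x' = 0 → pp ^ n • y = 0 →
    e n (x + x') y = e n x y + e n x' y
  skew : ∀ {n x y}, pp ^ n • x = 0 → pp ^ n • y = 0 → e n y x = -e n x y
  self : ∀ {n x}, pp ^ n • x = 0 → e n x x = 0
  lev : ∀ {n x y}, pp ^ (n + 1) • x = 0 → pp ^ n • y = 0 → e (n + 1) x y = e n (pp • x) y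

namespace Al

variable {M C : Type} [AddCommGroup M] [AddCommGroup C] {e : ℕ → M → M → C} (h : Al e) {n : ℕ}
  {x y : M}

theorem tn (a : pp ^ n • x = 0) (i : ℕ) : pp ^ n • i • x = 0 := by rw [smul_comm, a, smul_zero]

theorem ta (a : pp ^ n • x = 0) (b : pp ^ n • y = 0) : pp ^ n • (x + y) = 0 := by
  rw [smul_add, a, b, add_zero]

include h

theorem nl (a : pp ^ n • x = 0) (b : pp ^ n • y = 0) (i : ℕ) : e n (i • x) y = i • e n x y := by
  induction i with
  | zero =>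
    have := h.addl (smul_zero _) (smul_zero _) b
    rw [add_zero, left_eq_add] at this
    rw [zero_smul, zero_smul, this]
  | succ i ih => rw [succ_nsmul, succ_nsmul, h.addl (tn a i) a b, ih]

theorem nr (a : pp ^ n • x = 0) (b : pp ^ n • y = 0) (i : ℕ) : e n x (i • y) = i • e n x y := by
  rw [h.skew (tn b i) a, h.nl b a, h.skew a b, smul_neg, neg_neg]

theorem addr {y' : M} (a : pp ^ n • x = 0) (b : pp ^ n • y = 0) (b' : pp ^ n • y' = 0) :
    e n x (y + y') = e n x y + e n x y' := by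
  rw [h.skew (ta b b') a, h.addl b b' a, h.skew a b, h.skew a b', neg_add, neg_neg, neg_neg]

theorem tor (a : pp ^ n • x = 0) (b : pp ^ n • y = 0) : pp ^ n • e n x y = 0 := by
  rw [← h.nl a b, a, ← zero_smul ℕ x, h.nl a b, zero_smul]

theorem det (a : pp ^ n • x = 0) (b : pp ^ n • y = 0) (i j k l : ℕ) :
    e n (i • x + j • y) (k • x + l • y) = (i * l) • e n x y - (j * k) • e n x y := by
  rw [h.addl (tn a i) (tn b j) (ta (tn a k) (tn b l)), h.nl a (ta (tn a k) (tn b l)),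
    h.nl b (ta (tn a k) (tn b l)), h.addr a (tn a k) (tn b l), h.addr b (tn a k) (tn b l),
    h.nr a a, h.nr a b, h.nr b a, h.nr b b, h.self a, h.self b, h.skew a b, smul_zero, smul_zero,
    zero_add, add_zero, smul_neg, smul_neg, mul_smul, mul_smul, sub_eq_add_neg]

end Al

variable {A B : ℤ} (hD : 4 * (A : ℚ) ^ 3 + 27 * (B : ℚ) ^ 2 ≠ 0)

theorem cp_bs (n : ℕ) (s : Tm (A : ℚ) (B : ℚ)) : TM.cp n s =
    ap ((bs hD).repr s 0) n • TM.cp n (bs hD 0) + ap ((bs hD).repr s 1) n • TM.cp n (bs hD 1) := by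
  rw [← TM.cp_smul, ← TM.cp_smul, ← map_add, ← Fin.sum_univ_two fun i => (bs hD).repr s i • bs hD i,
    (bs hD).sum_repr]

/-- every system is a multiple of the determinant -/
theorem cmp0 {e : ℕ → Pt A B → Pt A B → Additive Qbˣ} (h : Al e) :
    ∃ u : ℤ_[pp], ∀ n x y, pp ^ n • x = 0 → pp ^ n • y = 0 → e n x y = X (u * wp hD n x y) := by
  have t := fun n i => TM.pow_smul_cp (bs hD i) n
  obtain ⟨u, hu⟩ := ex_lim (fun n => e n (TM.cp n (bs hD 0)) (TM.cp n (bs hD 1)))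
    (fun n => h.tor (t n 0) (t n 1)) fun n => by
      rw [← h.nr (t _ 0) (t _ 1), TM.cp_succ, h.lev (t _ 0) (t _ 1), TM.cp_succ]
  refine ⟨u, fun n x y a b => ?_⟩
  obtain ⟨s, rfl⟩ := TM.exists_cp (hdiv hD) a
  obtain ⟨r, rfl⟩ := TM.exists_cp (hdiv hD) b
  have w := mq_eq.1 (wp_cp hD n s r)
  generalize wp hD n (TM.cp n s) (TM.cp n r) = z at w ⊢
  rw [cp_bs hD n s, cp_bs hD n r, h.det (t n 0) (t n 1), hu, ← map_nsmul, ← map_nsmul, ← map_sub,
    X_eq]
  rw [dt] at w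
  generalize (bs hD).repr s 0 = s0, (bs hD).repr s 1 = s1, (bs hD).repr r 0 = r0,
    (bs hD).repr r 1 = r1 at w ⊢
  refine O_of (O_mul u.2 (sub_mem (sub_mem
    (add_mem (O_mul (ap_O n s0) (X4F.Rc.O_nat (ap r1 n))) (O_mul (ap_O n r1) s0.2))
    (add_mem (O_mul (ap_O n s1) (X4F.Rc.O_nat (ap r0 n))) (O_mul (ap_O n r0) s1.2))) w)) ?_
  simp only [nsmul_eq_mul]
  push_cast
  ring

/-- **comparison**: a non degenerate system is a unit multiple of the determinant -/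
theorem cmp {e : ℕ → Pt A B → Pt A B → Additive Qbˣ} (h : Al e)
    (nd : ∀ x, pp ^ 1 • x = 0 → (∀ y, pp ^ 1 • y = 0 → e 1 x y = 0) → x = 0) :
    ∃ u : ℤ_[pp]ˣ, ∀ n x y, pp ^ n • x = 0 → pp ^ n • y = 0 →
      e n x y = X ((u : ℤ_[pp]) * wp hD n x y) := by
  obtain ⟨u, hu⟩ := cmp0 hD h
  have two : ∀ v : ℤ_[pp], ¬IsUnit v → ∃ c, v = pp * c := fun v l =>
    (PadicInt.norm_lt_one_iff_dvd v).1 (PadicInt.not_isUnit_iff.1 l)
  by_cases l : IsUnit u
  · exact ⟨l.unit, hu⟩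
  obtain ⟨c, rfl⟩ := two u l
  obtain ⟨s, hs⟩ := TM.cp_eq_zero_iff.1 (nd _ (TM.pow_smul_cp (bs hD 0) 1) fun y b => by
    rw [hu 1 _ y (TM.pow_smul_cp _ 1) b, X_zero]
    refine O_of (O_mul c.2 (wp_lev hD 1 (TM.cp 1 (bs hD 0)) y)) ?_
    rw [PadicInt.coe_mul, PadicInt.coe_natCast]
    ring)
  have k := congrArg (fun z => (bs hD).repr z 0) hs
  simp only [Module.Basis.repr_self, Finsupp.single_eq_same, map_smul, Finsupp.smul_apply,
    smul_eq_mul, pow_one] at k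
  exact absurd (IsUnit.of_mul_eq_one _ k.symm) PadicInt.irreducible_p.not_isUnit

theorem cmp' {e : ℕ → Pt A B → Pt A B → Additive Qbˣ} (h : Al e)
    (nd : ∀ x, pp ^ 1 • x = 0 → (∀ y, pp ^ 1 • y = 0 → e 1 x y = 0) → x = 0) :
    ∃ u : ℤ_[pp]ˣ, ∀ n x y, pp ^ n • x = 0 → pp ^ n • y = 0 →
      ((e n x y).toMul : Qb) = ex ((u : ℤ_[pp]) * wp hD n x y) :=
  (cmp hD h nd).imp fun u hu n x y a b => by rw [hu n x y a b, X_val]

end Vale.Agent.P014U.Ew
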